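import Mathlib

/-!
Euclidean Ramsey sets, subtransitive sets and cyclic kites.
-/

namespace Vale.Agent.P058

/-- `A` is Euclidean Ramsey: for every number `r ≥ 2` of colours some `ℝ^D` has a monochromatic
congruent copy of `A` in every colouring. -/
def IsRamsey {d : ℕ} (A : Finset (EuclideanSpace ℝ (Fin d))) : Prop :=
  A.Nonempty ∧ ∀ r : ℕ, 2 ≤ r → ∃ D : ℕ, 1 ≤ D ∧ ∀ χ : EuclideanSpace ℝ (Fin D) → Fin r,
    ∃ f : EuclideanSpace ℝ (Fin d) → EuclideanSpace ℝ (Fin D),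
      (∀ x ∈ A, ∀ y ∈ A, dist (f x) (f y) = dist x y) ∧ ∃ i : Fin r, ∀ x ∈ A, χ (f x) = i

/-- The isometries of `ℝ^n` that map `X` onto itself act transitively on `X`. -/
def IsTransitiveSet {n : ℕ} (X : Finset (EuclideanSpace ℝ (Fin n))) : Prop :=
  ∀ x ∈ X, ∀ y ∈ X, ∃ g : EuclideanSpace ℝ (Fin n) ≃ᵢ EuclideanSpace ℝ (Fin n),
    g '' (X : Set (EuclideanSpace ℝ (Fin n))) = X ∧ g x = y

/-- `A` is congruent to a subset of a finite transitive set in some `ℝ^n`. -/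
def IsSubtransitive {d : ℕ} (A : Finset (EuclideanSpace ℝ (Fin d))) : Prop :=
  ∃ (n : ℕ) (X : Finset (EuclideanSpace ℝ (Fin n))), IsTransitiveSet X ∧
    ∃ f : EuclideanSpace ℝ (Fin d) → EuclideanSpace ℝ (Fin n),
      (∀ x ∈ A, ∀ y ∈ A, dist (f x) (f y) = dist x y) ∧ ∀ x ∈ A, f x ∈ X

open scoped Classical in
/-- The cyclic kite with vertices `(1,0)`, `(-1,0)`, `(c, ±√(1-c²))`. -/
noncomputable def kite (c : ℝ) : Finset (EuclideanSpace ℝ (Fin 2)) :=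
  {!₂[1, 0], !₂[-1, 0], !₂[c, Real.sqrt (1 - c ^ 2)], !₂[c, -Real.sqrt (1 - c ^ 2)]}

end Vale.Agent.P058
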