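import Mathlib

/-!
Homogenisation of colourings under sign changes of the coordinates of a finite grid.
-/

namespace Vale.Agent.P058

open Finset

/-- Squared Euclidean distance on functions on a finite type. -/
def sqd {ι : Type*} [Fintype ι] (x y : ι → ℝ) : ℝ := ∑ i, (x i - y i) ^ 2

/-- A line can be placed so that the colour is symmetric at all the magnitudes in `ts`,
with all points at the magnitudes in `S` inside a fixed finite set. -/
def LineGood (ts : List ℝ) : Prop :=
  ∀ (S : Finset ℝ) (κ : Type) [Fintype κ], ∃ (D : ℕ) (Z : Finset (Fin D → ℝ)),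
    ∀ χ : (Fin D → ℝ) → κ, ∃ g : ℝ → Fin D → ℝ,
      (∀ t t', sqd (g t) (g t') = (t - t') ^ 2) ∧ (∀ t ∈ S, g t ∈ Z) ∧
      ∀ t ∈ ts, χ (g t) = χ (g (-t))

/-- The same for an `n`-dimensional box. -/
def BoxGood (ts : List ℝ) (n : ℕ) : Prop :=
  ∀ (S : Finset ℝ) (κ : Type) [Fintype κ], ∃ (D : ℕ) (Z : Finset (Fin D → ℝ)),
    ∀ χ : (Fin D → ℝ) → κ, ∃ f : (Fin n → ℝ) → Fin D → ℝ,
      (∀ y y', sqd (f y) (f y') = sqd y y') ∧
      (∀ y, (∀ w, y w ∈ S) → f y ∈ Z) ∧
      ∀ y y', (∀ w, y w ∈ S) → (∀ w, y' w ∈ S) →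
        (∀ w, y' w = y w ∨ (y' w = -y w ∧ (y w ∈ ts ∨ y' w ∈ ts))) →
        χ (f y) = χ (f y')

theorem sqd_append {m k : ℕ} (a a' : Fin m → ℝ) (b b' : Fin k → ℝ) :
    sqd (Fin.append a b) (Fin.append a' b') = sqd a a' + sqd b b' := by
  simp [sqd, Fin.sum_univ_add]

theorem boxGood_zero (ts : List ℝ) : BoxGood ts 0 := by
  intro S κ _
  refine ⟨0, {0}, fun χ => ⟨fun _ => 0, ?_, ?_, ?_⟩⟩
  · intro y y'; simp [sqd]
  · intro y _; simp
  · intro y y' _ _ _; rfl

theorem boxGood_succ {ts : List ℝ} (hL : LineGood ts) {n : ℕ} (hB : BoxGood ts n) :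
    BoxGood ts (n + 1) := by
  classical
  intro S κ _
  obtain ⟨D₁, Z₁, h₁⟩ := hB S (S → κ)
  obtain ⟨D₂, Z₂, h₂⟩ := hL S (Z₁ → κ)
  refine ⟨D₁ + D₂, (Z₁ ×ˢ Z₂).image (fun p => Fin.append p.1 p.2), fun χ => ?_⟩
  obtain ⟨g, hg, hgZ, hgc⟩ := h₂ (fun z₂ z₁ => χ (Fin.append z₁.1 z₂))
  obtain ⟨f, hf, hfZ, hfc⟩ := h₁ (fun z₁ t => χ (Fin.append z₁ (g t.1)))
  refine ⟨fun y => Fin.append (f (fun w => y w.castSucc)) (g (y (Fin.last n))), ?_, ?_, ?_⟩
  · intro y y'
    rw [sqd_append, hf, hg]
    simp [sqd, Fin.sum_univ_castSucc]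
  · intro y hy
    refine Finset.mem_image.2 ⟨(_, _), Finset.mem_product.2 ⟨hfZ _ fun w => hy _, hgZ _ (hy _)⟩, rfl⟩
  · intro y y' hy hy' hyy'
    have e₁ := congr_fun (hfc (fun w => y w.castSucc) (fun w => y' w.castSucc)
      (fun w => hy _) (fun w => hy' _) (fun w => hyy' _)) ⟨y (Fin.last n), hy _⟩
    simp only at e₁ ⊢
    rw [e₁]
    have hz : f (fun w => y' w.castSucc) ∈ Z₁ := hfZ _ fun w => hy' _
    rcases hyy' (Fin.last n) with e | ⟨e, hm⟩
    · rw [e]
    · rcases hm with hm | hm
      · have := congr_fun (hgc _ hm) ⟨_, hz⟩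
        simpa [e] using this
      · have := congr_fun (hgc _ hm) ⟨_, hz⟩
        simp [e] at this ⊢
        exact this.symm

theorem boxGood_of_lineGood {ts : List ℝ} (hL : LineGood ts) : ∀ n, BoxGood ts n
  | 0 => boxGood_zero ts
  | n + 1 => boxGood_succ hL (boxGood_of_lineGood hL n)

theorem lineGood_nil : LineGood [] := by
  classical
  intro S κ _
  refine ⟨1, S.image (fun t _ => t), fun χ => ⟨fun t _ => t, ?_, ?_, ?_⟩⟩
  · intro t t'; simp [sqd]
  · intro t ht; exact Finset.mem_image_of_mem _ ht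
  · intro t ht; simp at ht

/-- The pigeonhole step: one new magnitude `t₀`. -/
theorem lineGood_cons (t₀ : ℝ) (ts : List ℝ)
    (ih : LineGood (ts.map (fun t => t / Real.sqrt 2))) : LineGood (t₀ :: ts) := by
  classical
  intro S κ _
  set n := Fintype.card κ + 1 with hn
  set q : ℝ := Real.sqrt 2 with hq
  have hq0 : q ≠ 0 := by positivity
  have hq2 : q ^ 2 = 2 := Real.sq_sqrt (by norm_num)
  set A : Finset ℝ := S ∪ ts.toFinset with hA
  obtain ⟨D, Z, h⟩ := boxGood_of_lineGood ih n
    (A.image (fun t => t / q) ∪ A.image (fun t => -(t / q)) ∪ {t₀ / q, -(t₀ / q)}) κ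
  refine ⟨D, Z, fun χ => ?_⟩
  obtain ⟨f, hf, hfZ, hfc⟩ := h χ
  let v : Fin n → Fin n → ℝ := fun s w => if w = s then t₀ / q else -(t₀ / q)
  obtain ⟨s, s', hne, hcol⟩ := Fintype.exists_ne_map_eq_of_card_lt (fun s => χ (f (v s)))
    (by simp [hn])
  let y : ℝ → Fin n → ℝ := fun t w =>
    if w = s then t / q else if w = s' then -(t / q) else -(t₀ / q)
  refine ⟨fun t => f (y t), ?_, ?_, ?_⟩
  · intro t t'
    rw [hf, sqd]
    have hs : ∀ w, (y t w - y t' w) ^ 2 =
        (if w = s then (t - t') ^ 2 / 2 else 0) + (if w = s' then (t - t') ^ 2 / 2 else 0) := by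
      intro w
      by_cases h1 : w = s
      · subst h1
        simp only [y, if_true, hne, if_false, add_zero]
        rw [← sub_div, div_pow, hq2]
      · by_cases h2 : w = s'
        · subst h2
          simp only [y, if_true, h1, if_false, zero_add]
          rw [show -(t / q) - -(t' / q) = -((t - t') / q) by ring, neg_sq, div_pow, hq2]
        · simp [y, h1, h2]
    simp only [hs, Finset.sum_add_distrib, Finset.sum_ite_eq', Finset.mem_univ, if_true]
    ring
  · intro t ht
    refine hfZ _ fun w => ?_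
    have : t ∈ A := Finset.mem_union_left _ ht
    simp only [y]
    split_ifs
    · exact Finset.mem_union_left _ (Finset.mem_union_left _ (Finset.mem_image_of_mem _ this))
    · exact Finset.mem_union_left _ (Finset.mem_union_right _ (Finset.mem_image_of_mem _ this))
    · exact Finset.mem_union_right _ (by simp)
  · intro t ht
    rcases List.mem_cons.1 ht with rfl | ht
    · have e1 : y t = v s := by
        funext w; simp only [y, v]
        split_ifs <;> rfl
      have e2 : y (-t) = v s' := by
        funext w; simp only [y, v]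
        by_cases h1 : w = s
        · subst h1; simp [hne, neg_div]
        · by_cases h2 : w = s'
          · subst h2; simp [h1, neg_div]
          · simp [h1, h2]
      show χ (f (y t)) = χ (f (y (-t)))
      rw [e1, e2]; exact hcol
    · have hA' : t ∈ A := Finset.mem_union_right _ (by simpa using ht)
      have hmem : t / q ∈ ts.map (fun t => t / q) := List.mem_map_of_mem ht
      apply hfc
      · intro w; simp only [y]
        split_ifs
        · exact Finset.mem_union_left _ (Finset.mem_union_left _ (Finset.mem_image_of_mem _ hA'))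
        · exact Finset.mem_union_left _ (Finset.mem_union_right _ (Finset.mem_image_of_mem _ hA'))
        · exact Finset.mem_union_right _ (by simp)
      · intro w; simp only [y, neg_div, neg_neg]
        split_ifs
        · exact Finset.mem_union_left _ (Finset.mem_union_right _ (Finset.mem_image_of_mem _ hA'))
        · exact Finset.mem_union_left _ (Finset.mem_union_left _ (Finset.mem_image_of_mem _ hA'))
        · exact Finset.mem_union_right _ (by simp)
      · intro w; simp only [y, neg_div, neg_neg]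
        by_cases h1 : w = s
        · right; simp only [h1, if_true]; exact ⟨trivial, Or.inl hmem⟩
        · by_cases h2 : w = s'
          · right; simp only [h2, if_true, if_neg (Ne.symm hne)]
            exact ⟨(neg_neg _).symm, Or.inr hmem⟩
          · left; simp [h1, h2]

theorem lineGood : ∀ ts : List ℝ, LineGood ts := by
  intro ts
  generalize hk : ts.length = k
  induction k generalizing ts with
  | zero => rw [List.length_eq_zero_iff.1 hk]; exact lineGood_nil
  | succ k ih =>
    match ts, hk with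
    | t₀ :: ts, hk => exact lineGood_cons t₀ ts (ih _ (by simpa using hk))

/-- Every finite colouring of some Euclidean space has an isometric image of the box
in which the colour of a point of the grid does not depend on the signs of its coordinates. -/
theorem sign_homogeneous (ι : Type*) [Fintype ι] (S : Finset ℝ) (κ : Type) [Fintype κ] :
    ∃ D : ℕ, ∀ χ : (Fin D → ℝ) → κ, ∃ f : (ι → ℝ) → Fin D → ℝ,
      (∀ y y', sqd (f y) (f y') = sqd y y') ∧
      ∀ y y', (∀ w, y w ∈ S) → (∀ w, y' w ∈ S) → (∀ w, y' w = y w ∨ y' w = -y w) →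
        χ (f y) = χ (f y') := by
  obtain ⟨D, Z, h⟩ := boxGood_of_lineGood (lineGood S.toList) (Fintype.card ι) S κ
  refine ⟨D, fun χ => ?_⟩
  obtain ⟨f, hf, -, hfc⟩ := h χ
  let e := Fintype.equivFin ι
  refine ⟨fun y => f (fun w => y (e.symm w)), fun y y' => ?_, fun y y' hy hy' hyy' => ?_⟩
  · rw [hf]
    exact Fintype.sum_equiv e.symm _ _ (fun w => rfl)
  · refine hfc _ _ (fun w => hy _) (fun w => hy' _) fun w => ?_
    rcases hyy' (e.symm w) with h | h
    · exact Or.inl h
    · exact Or.inr ⟨h, Or.inl (Finset.mem_toList.2 (hy _))⟩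

/-- Colourings of increasing tuples: two overlapping windows get the same colour. -/
theorem shift_windows (L : ℕ) : ∀ (κ : Type) [Fintype κ], ∃ N : ℕ,
    ∀ col : (Fin (L + 1) → Fin N) → κ, ∃ h : Fin (L + 2) → Fin N,
      StrictMono h ∧ col (h ∘ Fin.castSucc) = col (h ∘ Fin.succ) := by
  classical
  induction L with
  | zero =>
    intro κ _
    refine ⟨Fintype.card κ + 1, fun col => ?_⟩
    obtain ⟨a, b, hne, hab⟩ := Fintype.exists_ne_map_eq_of_card_lt
      (fun a : Fin (Fintype.card κ + 1) => col (fun _ => a)) (by simp)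
    rcases lt_or_gt_of_ne hne with hlt | hlt
    · refine ⟨![a, b], ?_, ?_⟩
      · rw [Fin.strictMono_iff_lt_succ]; intro i; fin_cases i; simpa using hlt
      · convert hab using 2 <;> · funext i; fin_cases i; simp
    · refine ⟨![b, a], ?_, ?_⟩
      · rw [Fin.strictMono_iff_lt_succ]; intro i; fin_cases i; simpa using hlt
      · convert hab.symm using 2 <;> · funext i; fin_cases i; simp
  | succ L ih =>
    intro κ _
    obtain ⟨N, hN⟩ := ih (κ → Bool)
    refine ⟨N, fun col => ?_⟩
    let c' : (Fin (L + 1) → Fin N) → κ → Bool := fun a k =>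
      decide (∃ a₀ : Fin N, a₀ < a 0 ∧ col (Fin.cons a₀ a) = k)
    obtain ⟨h, hm, heq⟩ := hN c'
    have hk : c' (h ∘ Fin.succ) (col h) = true := by
      simp only [c', decide_eq_true_eq]
      refine ⟨h 0, hm (Fin.succ_pos 0), ?_⟩
      congr 1
      exact Fin.cons_self_tail h
    rw [← heq] at hk
    simp only [c', decide_eq_true_eq] at hk
    obtain ⟨a₀, ha, hc⟩ := hk
    refine ⟨Fin.cons a₀ h, ?_, ?_⟩
    · rw [Fin.strictMono_iff_lt_succ]
      intro i
      refine Fin.cases ?_ (fun j => ?_) i
      · simpa using ha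
      · simp only [Fin.cons_succ, ← Fin.succ_castSucc]
        exact hm Fin.castSucc_lt_succ
    · rw [show (Fin.cons a₀ h : Fin (L + 3) → Fin N) ∘ Fin.succ = h from Fin.cons_comp_succ .., ← hc]
      congr 1
      funext i
      refine Fin.cases ?_ (fun j => ?_) i
      · simp
      · simp

end Vale.Agent.P058
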