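import Vale.Agent.P058.Homog

/-!
An explicit finite family of unit vectors, any two of which carry a cyclic kite up to signs.
-/

namespace Vale.Agent.P058

open Finset

/-- Partial geometric sum `1 + x + ... + x ^ e`. -/
noncomputable def geo (x : ℝ) (e : ℕ) : ℝ := ∑ l ∈ range (e + 1), x ^ l

theorem geo_pos {x : ℝ} (hx : 0 ≤ x) (e : ℕ) : 1 ≤ geo x e := by
  rw [geo, Finset.sum_range_succ']
  simp only [pow_zero, le_add_iff_nonneg_left]
  exact Finset.sum_nonneg fun i _ => pow_nonneg hx _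

theorem geo_mono {x : ℝ} (hx : 0 ≤ x) {e e' : ℕ} (h : e ≤ e') : geo x e ≤ geo x e' :=
  Finset.sum_le_sum_of_subset_of_nonneg (Finset.range_mono (by omega))
    (fun i _ _ => pow_nonneg hx _)

theorem geo_le {x : ℝ} (hx : 0 ≤ x) (hx1 : x < 1) (e : ℕ) : geo x e ≤ 1 / (1 - x) := by
  rw [le_div_iff₀ (by linarith), mul_comm, geo]
  have h := mul_neg_geom_sum x (e + 1)
  have h' := pow_nonneg hx (e + 1)
  linarith [h]

theorem geo_eq {x : ℝ} (e : ℕ) : (1 - x) * geo x e = 1 - x ^ (e + 1) := mul_neg_geom_sum x _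

theorem exists_deep (r : ℕ) {x : ℝ} (hx : 0 ≤ x) (hx1 : x < 1) :
    ∃ K : ℕ, ((r : ℝ) + 1) * (x ^ (K + 1) / (1 - x)) ≤ 1 := by
  have hpos : (0 : ℝ) < (1 - x) / ((r : ℝ) + 1) := div_pos (by linarith) (by positivity)
  obtain ⟨K, hK⟩ := exists_pow_lt_of_lt_one hpos hx1
  refine ⟨K, ?_⟩
  have hKs : x ^ (K + 1) ≤ x ^ K := pow_le_pow_of_le_one hx hx1.le (by omega)
  rw [lt_div_iff₀ (by positivity)] at hK
  rw [mul_div, div_le_one (by linarith)]
  nlinarith

/-- Weight of the base `b`. -/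
noncomputable def wt (x : ℝ) (K r : ℕ) : Option (Fin (r + 1)) → ℝ
  | some b => geo x (K + b) / geo x K - 1
  | none => 1 / geo x K - ∑ b : Fin (r + 1), (geo x (K + b) / geo x K - 1)

theorem wt_sum (x : ℝ) (K r : ℕ) : ∑ b, wt x K r b = 1 / geo x K := by
  rw [Fintype.sum_option]; simp [wt]

theorem wt_nonneg {x : ℝ} (hx : 0 ≤ x) (hx1 : x < 1) {K r : ℕ}
    (hK : ((r : ℝ) + 1) * (x ^ (K + 1) / (1 - x)) ≤ 1) (b : Option (Fin (r + 1))) :
    0 ≤ wt x K r b := by
  have hg : 0 < geo x K := lt_of_lt_of_le one_pos (geo_pos hx K)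
  cases b with
  | some b =>
    simp only [wt, sub_nonneg, one_le_div hg]
    exact geo_mono hx (by omega)
  | none =>
    simp only [wt, sub_nonneg]
    have key : ∀ b : Fin (r + 1),
        geo x (K + b) / geo x K - 1 ≤ (x ^ (K + 1) / (1 - x)) / geo x K := by
      intro b
      rw [div_sub_one hg.ne', div_le_div_iff_of_pos_right hg, le_div_iff₀ (by linarith)]
      have h1 := geo_eq (x := x) (K + b)
      have h2 := geo_eq (x := x) K
      have h3 := pow_nonneg hx (K + (b : ℕ) + 1)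
      nlinarith
    calc ∑ b : Fin (r + 1), (geo x (K + b) / geo x K - 1)
        ≤ ∑ _b : Fin (r + 1), (x ^ (K + 1) / (1 - x)) / geo x K := Finset.sum_le_sum fun b _ => key b
      _ = (((r : ℝ) + 1) * (x ^ (K + 1) / (1 - x))) / geo x K := by
          rw [Finset.sum_const, Finset.card_univ, Fintype.card_fin, nsmul_eq_mul, mul_div]
          push_cast; ring
      _ ≤ 1 / geo x K := div_le_div_of_nonneg_right hK hg.le

/-- The `k`-th vector: levels `0, ..., K + k` of every base, except level `0` of base `k`. -/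
noncomputable def vec (c : ℝ) (K r : ℕ) (k : Fin (r + 1)) (b : Option (Fin (r + 1))) (l : ℕ) :
    ℝ :=
  if l ≤ K + k ∧ ¬(l = 0 ∧ b = some k) then Real.sqrt (wt (c ^ 2) K r b) * c ^ l else 0

theorem vec_succ {c : ℝ} {K r : ℕ} {i k : Fin (r + 1)} (hik : i < k)
    (b : Option (Fin (r + 1))) (l : ℕ) (h : vec c K r i b l ≠ 0) :
    l + 1 ≤ K + k ∧ vec c K r k b (l + 1) = c * vec c K r i b l := by
  have hik' : (i : ℕ) < k := hik
  by_cases hl : l ≤ K + i ∧ ¬(l = 0 ∧ b = some i)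
  · refine ⟨by omega, ?_⟩
    have h1 : l + 1 ≤ K + k ∧ ¬(l + 1 = 0 ∧ b = some k) := ⟨by omega, fun e => by omega⟩
    simp only [vec, if_pos hl, if_pos h1]
    ring
  · exact absurd (by simp only [vec, if_neg hl]) h

theorem vec_norm {c : ℝ} (hc : c ^ 2 < 1) {K r : ℕ}
    (hK : ((r : ℝ) + 1) * ((c ^ 2) ^ (K + 1) / (1 - c ^ 2)) ≤ 1) (k : Fin (r + 1)) :
    ∑ b, ∑ l : Fin (K + r + 1), vec c K r k b l ^ 2 = 1 := by
  set x := c ^ 2 with hx
  have hx0 : 0 ≤ x := sq_nonneg c
  have hg : geo x K ≠ 0 := (lt_of_lt_of_le one_pos (geo_pos hx0 K)).ne'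
  have hterm : ∀ b (l : ℕ), vec c K r k b l ^ 2 =
      (if l ≤ K + k then wt x K r b * x ^ l else 0) -
      (if l = 0 then (if b = some k then wt x K r b else 0) else 0) := by
    intro b l
    have hw := wt_nonneg hx0 hc hK b
    have hpow : (Real.sqrt (wt x K r b) * c ^ l) ^ 2 = wt x K r b * x ^ l := by
      rw [mul_pow, Real.sq_sqrt hw, hx, ← pow_mul, ← pow_mul, mul_comm l 2]
    unfold vec
    rw [← hx]
    by_cases h1 : l ≤ K + k
    · by_cases h2 : l = 0
      · subst h2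
        by_cases h3 : b = some k
        · simp [h3]
        · simp [h3, Real.sq_sqrt hw]
      · simp [h1, h2, hpow]
    · have h2 : l ≠ 0 := by omega
      simp [h1, h2]
  have hfull : ∀ b, ∑ l : Fin (K + r + 1), vec c K r k b l ^ 2 =
      wt x K r b * geo x (K + k) - (if b = some k then wt x K r b else 0) := by
    intro b
    rw [Fin.sum_univ_eq_sum_range (fun l => vec c K r k b l ^ 2)]
    simp only [hterm, Finset.sum_sub_distrib]
    rw [Finset.sum_ite_eq', if_pos (Finset.mem_range.2 (by omega)), ← Finset.sum_filter]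
    congr 1
    rw [geo, Finset.mul_sum]
    refine Finset.sum_congr ?_ fun _ _ => rfl
    have := k.isLt
    ext l
    simp only [Finset.mem_filter, Finset.mem_range]
    omega
  simp only [hfull, Finset.sum_sub_distrib, ← Finset.sum_mul, wt_sum]
  rw [Finset.sum_ite_eq', if_pos (Finset.mem_univ _)]
  simp only [wt]
  field_simp
  ring

theorem sum_place {L N : ℕ} {h : Fin L → Fin N} (hh : Function.Injective h) (v : Fin L → ℝ) :
    ∑ p, Function.extend h v 0 p ^ 2 = ∑ l, v l ^ 2 := by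
  refine (Fintype.sum_of_injective h hh _ _ ?_ ?_).symm
  · intro p hp
    rw [Function.extend_apply' _ _ _ (fun ⟨a, ha⟩ => hp ⟨a, ha⟩)]
    simp
  · intro l; rw [hh.extend_apply]

/-- Every finite colouring of a suitable space contains the cyclic kite with parameter `c`. -/
theorem kite_colour (c : ℝ) (hc : c ^ 2 < 1) (r : ℕ) :
    ∃ D : ℕ, ∀ χ : (Fin D → ℝ) → Fin r, ∃ p₁ p₂ p₃ p₄ : Fin D → ℝ,
      sqd p₁ p₂ = 4 ∧ sqd p₁ p₃ = 2 - 2 * c ∧ sqd p₁ p₄ = 2 - 2 * c ∧
      sqd p₂ p₃ = 2 + 2 * c ∧ sqd p₂ p₄ = 2 + 2 * c ∧ sqd p₃ p₄ = 4 - 4 * c ^ 2 ∧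
      χ p₁ = χ p₂ ∧ χ p₁ = χ p₃ ∧ χ p₁ = χ p₄ := by
  classical
  obtain ⟨K, hK⟩ := exists_deep r (sq_nonneg c) hc
  obtain ⟨N, hN⟩ := shift_windows (K + r) (Fin (r + 1) → Fin r)
  let P : (Fin (K + r + 1) → Fin N) → Fin (r + 1) → Option (Fin (r + 1)) × Fin N → ℝ :=
    fun h k w => Function.extend h (fun l : Fin (K + r + 1) => vec c K r k w.1 l) 0 w.2
  let V : Finset ℝ := insert 0 (Finset.univ.image
    (fun q : Fin (r + 1) × Option (Fin (r + 1)) × Fin (K + r + 1) => vec c K r q.1 q.2.1 q.2.2))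
  let S : Finset ℝ := V ∪ V.image (fun t => -t)
  obtain ⟨D, hD⟩ := sign_homogeneous (Option (Fin (r + 1)) × Fin N) S (Fin r)
  refine ⟨D, fun χ => ?_⟩
  obtain ⟨f, hf, hfc⟩ := hD χ
  obtain ⟨h, hm, heq⟩ := hN (fun g k => χ (f (P g k)))
  obtain ⟨i, k, hik, hcol⟩ : ∃ i k : Fin (r + 1), i < k ∧
      χ (f (P (h ∘ Fin.castSucc) i)) = χ (f (P (h ∘ Fin.castSucc) k)) := by
    obtain ⟨a, b, hne, hab⟩ := Fintype.exists_ne_map_eq_of_card_lt
      (fun k => χ (f (P (h ∘ Fin.castSucc) k))) (by simp)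
    rcases lt_or_gt_of_ne hne with hlt | hlt
    · exact ⟨a, b, hlt, hab⟩
    · exact ⟨b, a, hlt, hab.symm⟩
  set A := P (h ∘ Fin.succ) i with hA
  set B := P (h ∘ Fin.castSucc) k with hB
  have hinjS : Function.Injective (h ∘ Fin.succ) :=
    hm.injective.comp (Fin.succ_injective _)
  have hinjC : Function.Injective (h ∘ Fin.castSucc) :=
    hm.injective.comp (Fin.castSucc_injective _)
  have key : ∀ w, B w = c * A w ∨ A w = 0 := by
    rintro ⟨b, p⟩
    by_cases hz : A (b, p) = 0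
    · exact Or.inr hz
    left
    have hr : ∃ l, (h ∘ Fin.succ) l = p := by
      by_contra hne
      exact hz (by simp only [hA, P]; rw [Function.extend_apply' _ _ _ hne]; rfl)
    obtain ⟨l, rfl⟩ := hr
    have hAv : A (b, (h ∘ Fin.succ) l) = vec c K r i b l := by
      simp only [hA, P]; rw [hinjS.extend_apply]
    rw [hAv] at hz
    obtain ⟨hle, hv⟩ := vec_succ hik b l hz
    have hlt : (l : ℕ) + 1 < K + r + 1 := by have := k.isLt; omega
    have hpos : (h ∘ Fin.succ) l = (h ∘ Fin.castSucc) ⟨l + 1, hlt⟩ := rfl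
    rw [hAv, ← hv, hB]
    simp only [P]
    rw [hpos, hinjC.extend_apply]
  have hmemP : ∀ g : Fin (K + r + 1) → Fin N, Function.Injective g → ∀ j w, P g j w ∈ V := by
    rintro g hg j ⟨b, p⟩
    by_cases hr : ∃ l, g l = p
    · obtain ⟨l, rfl⟩ := hr
      simp only [P]
      rw [hg.extend_apply]
      exact Finset.mem_insert_of_mem (Finset.mem_image.2 ⟨(j, b, l), Finset.mem_univ _, rfl⟩)
    · simp only [P]
      rw [Function.extend_apply' _ _ _ hr]
      exact Finset.mem_insert_self _ _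
  have hnorm : ∀ g : Fin (K + r + 1) → Fin N, Function.Injective g → ∀ j,
      ∑ w, P g j w ^ 2 = 1 := by
    intro g hg j
    rw [Fintype.sum_prod_type]
    simp only [P, sum_place hg]
    exact vec_norm hc hK j
  set B' : Option (Fin (r + 1)) × Fin N → ℝ := fun w => 2 * c * A w - B w with hB'
  have hpm : ∀ w, B' w = B w ∨ B' w = -B w := by
    intro w
    rcases key w with e | e
    · left; simp only [hB', e]; ring
    · right; simp only [hB', e]; ring
  have hAS : ∀ w, A w ∈ S := fun w => Finset.mem_union_left _ (hmemP _ hinjS i w)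
  have hBS : ∀ w, B w ∈ S := fun w => Finset.mem_union_left _ (hmemP _ hinjC k w)
  have hAS' : ∀ w, -A w ∈ S := fun w =>
    Finset.mem_union_right _ (Finset.mem_image_of_mem _ (hmemP _ hinjS i w))
  have hB'S : ∀ w, B' w ∈ S := by
    intro w
    rcases hpm w with e | e <;> rw [e]
    · exact hBS w
    · exact Finset.mem_union_right _ (Finset.mem_image_of_mem _ (hmemP _ hinjC k w))
  have hA1 : ∑ w, A w ^ 2 = 1 := hnorm _ hinjS i
  have hB1 : ∑ w, B w ^ 2 = 1 := hnorm _ hinjC k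
  have hAB : ∑ w, A w * B w = c := by
    have : ∀ w, A w * B w = c * A w ^ 2 := by
      intro w
      rcases key w with e | e <;> rw [e] <;> ring
    simp only [this, ← Finset.mul_sum, hA1, mul_one]
  refine ⟨f A, f (fun w => -A w), f B, f B', ?_, ?_, ?_, ?_, ?_, ?_, ?_, ?_, ?_⟩
  all_goals try rw [hf, sqd]
  · have : ∀ w, (A w - -A w) ^ 2 = 4 * A w ^ 2 := fun w => by ring
    simp only [this, ← Finset.mul_sum, hA1, mul_one]
  · have : ∀ w, (A w - B w) ^ 2 = A w ^ 2 + B w ^ 2 - 2 * (A w * B w) := fun w => by ring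
    simp only [this, Finset.sum_sub_distrib, Finset.sum_add_distrib, ← Finset.mul_sum, hA1, hB1,
      hAB]
    ring
  · have : ∀ w, (A w - B' w) ^ 2 =
        (1 - 4 * c + 4 * c ^ 2) * A w ^ 2 + B w ^ 2 + (2 - 4 * c) * (A w * B w) := fun w => by
      simp only [hB']; ring
    simp only [this, Finset.sum_add_distrib, ← Finset.mul_sum, hA1, hB1, hAB]
    ring
  · have : ∀ w, (-A w - B w) ^ 2 = A w ^ 2 + B w ^ 2 + 2 * (A w * B w) := fun w => by ring
    simp only [this, Finset.sum_add_distrib, ← Finset.mul_sum, hA1, hB1, hAB]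
    ring
  · have : ∀ w, (-A w - B' w) ^ 2 =
        (1 + 4 * c + 4 * c ^ 2) * A w ^ 2 + B w ^ 2 + (-2 - 4 * c) * (A w * B w) := fun w => by
      simp only [hB']; ring
    simp only [this, Finset.sum_add_distrib, ← Finset.mul_sum, hA1, hB1, hAB]
    ring
  · have : ∀ w, (B w - B' w) ^ 2 =
        4 * c ^ 2 * A w ^ 2 + 4 * B w ^ 2 + (-8 * c) * (A w * B w) := fun w => by
      simp only [hB']; ring
    simp only [this, Finset.sum_add_distrib, ← Finset.mul_sum, hA1, hB1, hAB]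
    ring
  · exact hfc _ _ hAS hAS' fun w => Or.inr rfl
  · rw [hA, ← congr_fun heq i]; exact hcol
  · refine Eq.trans ?_ (hfc _ _ hBS hB'S hpm)
    rw [hA, ← congr_fun heq i]; exact hcol

end Vale.Agent.P058
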