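import Vale.Agent.P058.Defs

/-!
All but countably many cyclic kites are not subtransitive.
-/

namespace Vale.Agent.P058

open Finset Polynomial
open scoped InnerProductSpace

/-- The four points of a kite satisfy an affine relation. -/
theorem kite_relation {E : Type*} [NormedAddCommGroup E] [InnerProductSpace ℝ E] {P Q U V : E}
    {c : ℝ} (hPQ : dist P Q ^ 2 = 4) (hPU : dist P U ^ 2 = 2 - 2 * c)
    (hPV : dist P V ^ 2 = 2 - 2 * c) (hQU : dist Q U ^ 2 = 2 + 2 * c)
    (hQV : dist Q V ^ 2 = 2 + 2 * c) (hUV : dist U V ^ 2 = 4 - 4 * c ^ 2) :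
    (1 + c) • P + (1 - c) • Q - U - V = 0 := by
  rw [dist_eq_norm'] at hPQ hPU hPV hQU hQV hUV
  set q := Q - P with hq
  set u := U - P with hu
  set v := V - P with hv
  rw [show U - Q = u - q by rw [hu, hq]; abel] at hQU
  rw [show V - Q = v - q by rw [hv, hq]; abel] at hQV
  rw [show V - U = v - u by rw [hv, hu]; abel] at hUV
  rw [norm_sub_sq_real] at hQU hQV hUV
  have hz : (1 + c) • P + (1 - c) • Q - U - V = (1 - c) • q - (u + v) := by
    rw [hq, hu, hv]; module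
  rw [hz, ← norm_eq_zero, ← sq_eq_zero_iff, norm_sub_sq_real, norm_add_sq_real, norm_smul,
    mul_pow, Real.norm_eq_abs, sq_abs, inner_add_right, real_inner_smul_left, real_inner_smul_left,
    real_inner_comm u q, real_inner_comm v q, real_inner_comm v u]
  have h1 : ⟪u, q⟫_ℝ = 2 - 2 * c := by linarith
  have h2 : ⟪v, q⟫_ℝ = 2 - 2 * c := by linarith
  have h3 : ⟪v, u⟫_ℝ = 2 * c ^ 2 - 2 * c := by linarith
  rw [h1, h2, h3, hPQ, hPU, hPV]
  ring

/-- The formal kite relation, moved by `σ`. -/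
noncomputable def gen {n : ℕ} (a b u w : Fin n) (t : ℝ) (σ : Equiv.Perm (Fin n)) :
    EuclideanSpace ℝ (Fin n) :=
  (1 + t) • EuclideanSpace.single (σ a) 1 + (1 - t) • EuclideanSpace.single (σ b) 1 -
    EuclideanSpace.single (σ u) 1 - EuclideanSpace.single (σ w) 1

/-- The span of all moved relations. -/
noncomputable def relSpan {n : ℕ} (a b u w : Fin n) (G : Set (Equiv.Perm (Fin n))) (t : ℝ) :
    Submodule ℝ (EuclideanSpace ℝ (Fin n)) :=
  Submodule.span ℝ (gen a b u w t '' G)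

theorem mem_relSpan_of_one_lt {n : ℕ} {a b u w : Fin n} {G : Set (Equiv.Perm (Fin n))}
    (hone : (1 : Equiv.Perm (Fin n)) ∈ G) (hmul : ∀ σ ∈ G, ∀ τ ∈ G, σ * τ ∈ G)
    (htr : ∀ i j, ∃ σ ∈ G, σ i = j) {t : ℝ} (ht : 1 < t) :
    EuclideanSpace.single a (1 : ℝ) - EuclideanSpace.single b 1 ∈ relSpan a b u w G t := by
  set W := relSpan a b u w G t with hW
  set P := W.starProjection with hP
  let p : Fin n → EuclideanSpace ℝ (Fin n) := fun i =>
    EuclideanSpace.single i 1 - P (EuclideanSpace.single i 1)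
  have hle : ∀ i j, ‖p j‖ ≤ ‖p i‖ := by
    intro i j
    obtain ⟨τ, hτ, rfl⟩ := htr i j
    let L := LinearIsometryEquiv.piLpCongrLeft 2 ℝ ℝ τ
    have hL : ∀ k, L (EuclideanSpace.single k (1 : ℝ)) = EuclideanSpace.single (τ k) 1 :=
      fun k => LinearIsometryEquiv.piLpCongrLeft_single τ k (1 : ℝ)
    have hgen : ∀ σ, L (gen a b u w t σ) = gen a b u w t (τ * σ) := by
      intro σ
      simp only [gen, map_sub, map_add, map_smul, hL, Equiv.Perm.mul_apply]
    have hmap : ∀ x ∈ W, L x ∈ W := by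
      intro x hx
      have : Submodule.map L.toLinearEquiv.toLinearMap W ≤ W := by
        rw [hW, relSpan, Submodule.map_span, Submodule.span_le]
        rintro _ ⟨_, ⟨σ, hσ, rfl⟩, rfl⟩
        exact Submodule.subset_span ⟨τ * σ, hmul τ hτ σ hσ, (hgen σ).symm⟩
      exact this ⟨x, hx, rfl⟩
    have h1 : ‖p (τ i)‖ ≤
        ‖EuclideanSpace.single (τ i) (1 : ℝ) - L (P (EuclideanSpace.single i 1))‖ := by
      have := Submodule.starProjection_minimal (U := W) (EuclideanSpace.single (τ i) (1 : ℝ))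
      refine le_of_eq_of_le this ?_
      refine ciInf_le_of_le ⟨0, ?_⟩
        ⟨_, hmap _ (W.starProjection_apply_mem _)⟩ le_rfl
      rintro _ ⟨x, rfl⟩; exact norm_nonneg _
    rwa [← hL, ← map_sub, LinearIsometryEquiv.norm_map] at h1
  have hR : ∀ i, ‖p i‖ = ‖p a‖ := fun i => le_antisymm (hle a i) (hle i a)
  have hrel : (1 + t) • p a + (1 - t) • p b = p u + p w := by
    have hg : P (gen a b u w t 1) = gen a b u w t 1 :=
      Submodule.starProjection_eq_self_iff.2 (Submodule.subset_span ⟨1, hone, rfl⟩)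
    simp only [gen, Equiv.Perm.coe_one, id_eq, map_sub, map_add, map_smul] at hg
    rw [← sub_eq_zero]
    rw [← sub_eq_zero] at hg
    rw [← neg_eq_zero] at hg
    refine Eq.trans ?_ hg
    simp only [p]
    module
  have h4 : ‖(1 + t) • p a + (1 - t) • p b‖ ^ 2 ≤ (2 * ‖p a‖) ^ 2 := by
    rw [hrel]
    exact pow_le_pow_left₀ (norm_nonneg _) ((norm_add_le _ _).trans (by rw [hR u, hR w, two_mul])) 2
  rw [norm_add_sq_real, norm_smul, norm_smul, mul_pow, mul_pow, Real.norm_eq_abs, Real.norm_eq_abs,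
    sq_abs, sq_abs, real_inner_smul_left, real_inner_smul_right, hR b] at h4
  have h5 : ‖p a - p b‖ ^ 2 ≤ 0 := by
    rw [norm_sub_sq_real, hR b]
    have : 0 < t ^ 2 - 1 := by nlinarith
    nlinarith
  have h6 : p a - p b = 0 := by
    rw [← norm_eq_zero, ← sq_eq_zero_iff]
    exact le_antisymm h5 (sq_nonneg _)
  have h7 : P (EuclideanSpace.single a (1 : ℝ) - EuclideanSpace.single b 1) =
      EuclideanSpace.single a (1 : ℝ) - EuclideanSpace.single b 1 := by
    rw [map_sub, eq_comm, ← sub_eq_zero, ← h6]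
    simp only [p]
    abel
  exact Submodule.starProjection_eq_self_iff.1 h7

/-- The Gram determinant of an affine family of vectors, as a polynomial. -/
noncomputable def gramPoly {m n : ℕ} (A B : Fin m → EuclideanSpace ℝ (Fin n)) : ℝ[X] :=
  (Matrix.of fun i j : Fin m => ∑ k, (C (A i k) + X * C (B i k)) * (C (A j k) + X * C (B j k))).det

theorem gramPoly_eval {m n : ℕ} (A B : Fin m → EuclideanSpace ℝ (Fin n)) (t : ℝ) :
    (gramPoly A B).eval t = (Matrix.gram ℝ (fun i => A i + t • B i)).det := by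
  rw [gramPoly, ← Polynomial.coe_evalRingHom, RingHom.map_det]
  congr 1
  ext i j
  simp only [RingHom.mapMatrix_apply, Matrix.map_apply, Matrix.of_apply, Polynomial.coe_evalRingHom,
    Matrix.gram_apply, PiLp.inner_apply, Polynomial.eval_finsetSum, Polynomial.eval_mul,
    Polynomial.eval_add, Polynomial.eval_C, Polynomial.eval_X, RCLike.inner_apply, conj_trivial,
    PiLp.add_apply, PiLp.smul_apply, smul_eq_mul]
  exact Finset.sum_congr rfl fun k _ => by ring

theorem relSpan_bad_finite {n : ℕ} {a b u w : Fin n} {G : Set (Equiv.Perm (Fin n))}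
    (hone : (1 : Equiv.Perm (Fin n)) ∈ G) (hmul : ∀ σ ∈ G, ∀ τ ∈ G, σ * τ ∈ G)
    (htr : ∀ i j, ∃ σ ∈ G, σ i = j) :
    {c : ℝ | EuclideanSpace.single a (1 : ℝ) - EuclideanSpace.single b 1 ∉
      relSpan a b u w G c}.Finite := by
  set e : EuclideanSpace ℝ (Fin n) :=
    EuclideanSpace.single a (1 : ℝ) - EuclideanSpace.single b 1 with he
  obtain ⟨t₁, hmax⟩ : ∃ t₁, ∀ t, Module.finrank ℝ (relSpan a b u w G t) ≤
      Module.finrank ℝ (relSpan a b u w G t₁) := by
    have hne : (Set.range fun t => Module.finrank ℝ (relSpan a b u w G t)).Nonempty :=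
      Set.range_nonempty _
    have hbdd : BddAbove (Set.range fun t => Module.finrank ℝ (relSpan a b u w G t)) := by
      refine ⟨n, ?_⟩
      rintro _ ⟨t, rfl⟩
      exact (Submodule.finrank_le _).trans_eq finrank_euclideanSpace_fin
    obtain ⟨t₁, ht₁⟩ := Nat.sSup_mem hne hbdd
    refine ⟨t₁, fun t => ?_⟩
    simp only at ht₁
    rw [ht₁]
    exact le_csSup hbdd ⟨t, rfl⟩
  obtain ⟨v, hv, -, hli⟩ := Submodule.exists_fun_fin_finrank_span_eq ℝ (gen a b u w t₁ '' G)
  choose σ hσ hσv using hv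
  let A := fun i => gen a b u w 0 (σ i)
  let B := fun i => EuclideanSpace.single (σ i a) (1 : ℝ) - EuclideanSpace.single (σ i b) 1
  have hAB : ∀ (t : ℝ), (fun i => A i + t • B i) = fun i => gen a b u w t (σ i) := by
    intro t; funext i
    simp only [A, B, gen]
    module
  have hsnoc : ∀ (t : ℝ), (fun i => Fin.snoc (α := fun _ => EuclideanSpace ℝ (Fin n)) A e i +
      t • Fin.snoc (α := fun _ => EuclideanSpace ℝ (Fin n)) B 0 i) =
      Fin.snoc (fun i => gen a b u w t (σ i)) e := by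
    intro t; funext i
    refine Fin.lastCases ?_ (fun j => ?_) i
    · simp
    · simp only [Fin.snoc_castSucc]
      exact congr_fun (hAB t) j
  have hD : gramPoly A B ≠ 0 := by
    intro h0
    have h1 := gramPoly_eval A B t₁
    rw [h0, eval_zero, hAB t₁] at h1
    refine Matrix.det_gram_ne_zero_iff_linearIndependent.2 ?_ h1.symm
    rwa [funext hσv]
  have hH : gramPoly (Fin.snoc A e) (Fin.snoc B 0) = 0 := by
    refine Polynomial.eq_zero_of_infinite_isRoot _ ((Set.Ioi_infinite (1 : ℝ)).mono fun t ht => ?_)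
    show Polynomial.IsRoot _ t
    rw [Polynomial.IsRoot, gramPoly_eval, hsnoc]
    by_contra hne
    have hli' := Matrix.det_gram_ne_zero_iff_linearIndependent.1 hne
    have hmem : ∀ i, Fin.snoc (α := fun _ => EuclideanSpace ℝ (Fin n))
        (fun i => gen a b u w t (σ i)) e i ∈ relSpan a b u w G t := by
      refine Fin.lastCases ?_ (fun j => ?_)
      · simpa using mem_relSpan_of_one_lt hone hmul htr ht
      · rw [Fin.snoc_castSucc]
        exact Submodule.subset_span ⟨σ j, hσ j, rfl⟩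
    have hs : Submodule.span ℝ (Set.range (Fin.snoc (α := fun _ => EuclideanSpace ℝ (Fin n))
        (fun i => gen a b u w t (σ i)) e)) ≤ relSpan a b u w G t :=
      Submodule.span_le.2 (by rintro _ ⟨i, rfl⟩; exact hmem i)
    have h2 := Submodule.finrank_mono hs
    rw [finrank_span_eq_card hli', Fintype.card_fin] at h2
    have h3 := h2.trans (hmax t)
    rw [relSpan] at h3
    omega
  refine (Polynomial.finite_setOfPred_isRoot hD).subset fun c hc => ?_
  show Polynomial.IsRoot _ c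
  by_contra hne
  rw [Polynomial.IsRoot, gramPoly_eval, hAB] at hne
  have hli' := Matrix.det_gram_ne_zero_iff_linearIndependent.1 hne
  have h0 : (Matrix.gram ℝ (Fin.snoc (α := fun _ => EuclideanSpace ℝ (Fin n))
      (fun i => gen a b u w c (σ i)) e)).det = 0 := by
    rw [← hsnoc, ← gramPoly_eval, hH, eval_zero]
  have hdep := mt Matrix.det_gram_ne_zero_iff_linearIndependent.2 (not_not_intro h0)
  rw [linearIndependent_finSnoc, not_and] at hdep
  refine hc (Submodule.span_mono ?_ (not_not.1 (hdep hli')))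
  rintro _ ⟨i, rfl⟩
  exact ⟨σ i, hσ i, rfl⟩

/-- A kite with six given squared distances inside a transitive configuration forces `c` into a
finite set. -/
theorem kite_in_orbit {n : ℕ} {a b u w : Fin n} {G : Set (Equiv.Perm (Fin n))} {c : ℝ}
    {E : Type*} [NormedAddCommGroup E] [InnerProductSpace ℝ E] (p : Fin n → E)
    (hG : ∀ σ ∈ G, ∀ i j, dist (p (σ i)) (p (σ j)) = dist (p i) (p j))
    (hab : dist (p a) (p b) ^ 2 = 4) (hau : dist (p a) (p u) ^ 2 = 2 - 2 * c)
    (haw : dist (p a) (p w) ^ 2 = 2 - 2 * c) (hbu : dist (p b) (p u) ^ 2 = 2 + 2 * c)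
    (hbw : dist (p b) (p w) ^ 2 = 2 + 2 * c) (huw : dist (p u) (p w) ^ 2 = 4 - 4 * c ^ 2) :
    EuclideanSpace.single a (1 : ℝ) - EuclideanSpace.single b 1 ∉ relSpan a b u w G c := by
  intro hmem
  let φ : EuclideanSpace ℝ (Fin n) →ₗ[ℝ] E :=
    (Fintype.linearCombination ℝ p).comp (WithLp.linearEquiv 2 ℝ (Fin n → ℝ)).toLinearMap
  have hφ : ∀ i, φ (EuclideanSpace.single i (1 : ℝ)) = p i := by
    intro i
    simp [φ, EuclideanSpace.single, Fintype.linearCombination_apply_single]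
  have hker : relSpan a b u w G c ≤ LinearMap.ker φ := by
    rw [relSpan, Submodule.span_le]
    rintro _ ⟨σ, hσ, rfl⟩
    rw [SetLike.mem_coe, LinearMap.mem_ker]
    simp only [gen, map_sub, map_add, map_smul, hφ]
    apply kite_relation <;> rw [hG σ hσ] <;> assumption
  have h := hker hmem
  rw [LinearMap.mem_ker, map_sub, hφ, hφ, sub_eq_zero] at h
  rw [h, dist_self] at hab
  norm_num at hab

/-- The six distances of the cyclic kite. -/
theorem kite_dist {c : ℝ} (hc : c ^ 2 < 1) :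
    dist (!₂[1, 0] : EuclideanSpace ℝ (Fin 2)) !₂[-1, 0] ^ 2 = 4 ∧
    dist (!₂[1, 0] : EuclideanSpace ℝ (Fin 2)) !₂[c, Real.sqrt (1 - c ^ 2)] ^ 2 = 2 - 2 * c ∧
    dist (!₂[1, 0] : EuclideanSpace ℝ (Fin 2)) !₂[c, -Real.sqrt (1 - c ^ 2)] ^ 2 = 2 - 2 * c ∧
    dist (!₂[-1, 0] : EuclideanSpace ℝ (Fin 2)) !₂[c, Real.sqrt (1 - c ^ 2)] ^ 2 = 2 + 2 * c ∧
    dist (!₂[-1, 0] : EuclideanSpace ℝ (Fin 2)) !₂[c, -Real.sqrt (1 - c ^ 2)] ^ 2 = 2 + 2 * c ∧
    dist (!₂[c, Real.sqrt (1 - c ^ 2)] : EuclideanSpace ℝ (Fin 2))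
      !₂[c, -Real.sqrt (1 - c ^ 2)] ^ 2 = 4 - 4 * c ^ 2 := by
  have h := Real.sq_sqrt (show (0 : ℝ) ≤ 1 - c ^ 2 by linarith)
  refine ⟨?_, ?_, ?_, ?_, ?_, ?_⟩ <;>
    simp [EuclideanSpace.dist_sq_eq, Real.dist_eq, sq_abs] <;> nlinarith

/-- Only countably many cyclic kites are subtransitive. -/
theorem subtransitive_kites_countable :
    {c : ℝ | c ^ 2 < 1 ∧ IsSubtransitive (kite c)}.Countable := by
  classical
  let bad : ((n : ℕ) × ((Fin 4 → Fin n) × Set (Equiv.Perm (Fin n)))) → Set ℝ := fun q =>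
    {c | (1 : Equiv.Perm (Fin q.1)) ∈ q.2.2 ∧ (∀ σ ∈ q.2.2, ∀ τ ∈ q.2.2, σ * τ ∈ q.2.2) ∧
      (∀ i j, ∃ σ ∈ q.2.2, σ i = j) ∧
      EuclideanSpace.single (q.2.1 0) (1 : ℝ) - EuclideanSpace.single (q.2.1 1) 1 ∉
        relSpan (q.2.1 0) (q.2.1 1) (q.2.1 2) (q.2.1 3) q.2.2 c}
  have hbad : ∀ q, (bad q).Countable := by
    intro q
    by_cases hq : (1 : Equiv.Perm (Fin q.1)) ∈ q.2.2 ∧
        (∀ σ ∈ q.2.2, ∀ τ ∈ q.2.2, σ * τ ∈ q.2.2) ∧ (∀ i j, ∃ σ ∈ q.2.2, σ i = j)
    · exact ((relSpan_bad_finite hq.1 hq.2.1 hq.2.2).subset fun c hc => hc.2.2.2).countable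
    · exact Set.Countable.mono (fun c hc => hq ⟨hc.1, hc.2.1, hc.2.2.1⟩) Set.countable_empty
  refine (Set.countable_iUnion hbad).mono ?_
  rintro c ⟨hc, n, X, hX, f, hf, hfX⟩
  let p : Fin X.card → EuclideanSpace ℝ (Fin n) := fun i => (X.equivFin.symm i : _)
  let G : Set (Equiv.Perm (Fin X.card)) :=
    {σ | ∀ i j, dist (p (σ i)) (p (σ j)) = dist (p i) (p j)}
  have hone : (1 : Equiv.Perm (Fin X.card)) ∈ G := fun i j => rfl
  have hmul : ∀ σ ∈ G, ∀ τ ∈ G, σ * τ ∈ G := fun σ hσ τ hτ i j =>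
    (hσ (τ i) (τ j)).trans (hτ i j)
  have htr : ∀ i j, ∃ σ ∈ G, σ i = j := by
    intro i j
    obtain ⟨g, hg, hgij⟩ := hX (p i) (X.equivFin.symm i).2 (p j) (X.equivFin.symm j).2
    have hmem : ∀ k, g (p k) ∈ X := fun k => by
      have : g (p k) ∈ g '' (X : Set (EuclideanSpace ℝ (Fin n))) :=
        ⟨p k, (X.equivFin.symm k).2, rfl⟩
      rwa [hg] at this
    let s : Fin X.card → Fin X.card := fun k => X.equivFin ⟨g (p k), hmem k⟩
    have hs : ∀ k, p (s k) = g (p k) := fun k => by simp [p, s]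
    have hinj : Function.Injective s := fun k l hkl => by
      have h2 := congrArg p hkl
      rw [hs, hs] at h2
      exact X.equivFin.symm.injective (Subtype.ext (g.injective h2))
    refine ⟨Equiv.ofBijective s (Finite.injective_iff_bijective.1 hinj), fun k l => ?_, ?_⟩
    · simp only [Equiv.ofBijective_apply, hs]
      exact g.dist_eq _ _
    · simp only [Equiv.ofBijective_apply, s]
      rw [← Equiv.eq_symm_apply]
      exact Subtype.ext hgij
  have hmemk : ∀ x ∈ kite c, ∃ i, p i = f x := fun x hx =>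
    ⟨X.equivFin ⟨f x, hfX x hx⟩, by simp [p]⟩
  have m1 : (!₂[1, 0] : EuclideanSpace ℝ (Fin 2)) ∈ kite c := by simp [kite]
  have m2 : (!₂[-1, 0] : EuclideanSpace ℝ (Fin 2)) ∈ kite c := by simp [kite]
  have m3 : (!₂[c, Real.sqrt (1 - c ^ 2)] : EuclideanSpace ℝ (Fin 2)) ∈ kite c := by simp [kite]
  have m4 : (!₂[c, -Real.sqrt (1 - c ^ 2)] : EuclideanSpace ℝ (Fin 2)) ∈ kite c := by simp [kite]
  obtain ⟨ia, ha⟩ := hmemk _ m1
  obtain ⟨ib, hb⟩ := hmemk _ m2
  obtain ⟨iu, hu⟩ := hmemk _ m3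
  obtain ⟨iw, hw⟩ := hmemk _ m4
  obtain ⟨d1, d2, d3, d4, d5, d6⟩ := kite_dist hc
  refine Set.mem_iUnion.2 ⟨⟨X.card, ![ia, ib, iu, iw], G⟩, hone, hmul, htr, ?_⟩
  refine kite_in_orbit p (fun σ hσ => hσ) ?_ ?_ ?_ ?_ ?_ ?_
  all_goals simp only [Matrix.cons_val, ha, hb, hu, hw]
  · rw [hf _ m1 _ m2, d1]
  · rw [hf _ m1 _ m3, d2]
  · rw [hf _ m1 _ m4, d3]
  · rw [hf _ m2 _ m3, d4]
  · rw [hf _ m2 _ m4, d5]
  · rw [hf _ m3 _ m4, d6]

end Vale.Agent.P058
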